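import Mathlib

/-!
# Small sets for polynomials (measure lemmas of GoodProb)

`volume_sublevel_le`: a function on the cube that is a polynomial of degree at most `d` in each
variable and is at least `γ` somewhere is at most `γ * s ^ (d * n)` only on a set of measure
`O(s)`.
-/

namespace Vale.Agent.P205F.Prob

open MeasureTheory Set Polynomial
open scoped ENNReal

/-- The cube `[-1, 1]^n`. -/
def cube (n : ℕ) : Set (Fin n → ℝ) := Icc (fun _ => -1) (fun _ => 1)

lemma measurableSet_cube (n : ℕ) : MeasurableSet (cube n) := measurableSet_Icc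

lemma volume_cube (n : ℕ) : volume (cube n) = ENNReal.ofReal (2 ^ n) := by
  have h : ((1 : ℝ) - -1) = 2 := by norm_num
  rw [cube, Real.volume_Icc_pi]
  simp only [h, Finset.prod_const, Finset.card_univ, Fintype.card_fin]
  rw [ENNReal.ofReal_pow (by norm_num)]

/-- A function is a polynomial of degree at most `d` in each variable. -/
def PolyEach (d : ℕ) {n : ℕ} (f : (Fin n → ℝ) → ℝ) : Prop :=
  ∀ z i, ∃ q : ℝ[X], q.natDegree ≤ d ∧ ∀ t, f (Function.update z i t) = q.eval t

/-- A set of measure more than `2 r k` contains `k + 1` points at mutual distance at least `r`. -/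
lemma exists_separated {S : Set ℝ} {r : ℝ} (hr : 0 ≤ r) :
    ∀ k : ℕ, ENNReal.ofReal (2 * r * k) < volume S →
      ∃ v : Fin (k + 1) → ℝ, (∀ i, v i ∈ S) ∧ Pairwise fun i j => r ≤ |v i - v j| := by
  intro k
  induction k with
  | zero =>
    intro h
    obtain ⟨x, hx⟩ : S.Nonempty := nonempty_of_measure_ne_zero (ne_bot_of_gt h)
    exact ⟨fun _ => x, fun _ => hx, fun i j hij => absurd (Fin.ext (by omega)) hij⟩
  | succ k ih =>
    intro h
    obtain ⟨v, hv, hsep⟩ := ih <| lt_of_le_of_lt (ENNReal.ofReal_le_ofReal (by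
      push_cast; nlinarith)) h
    have hU : volume (⋃ i, Icc (v i - r) (v i + r)) ≤ ENNReal.ofReal (2 * r * ↑(k + 1)) := by
      refine (measure_iUnion_fintype_le _ _).trans ?_
      have hsum : ∀ i, volume (Icc (v i - r) (v i + r)) = ENNReal.ofReal (2 * r) := fun i => by
        rw [Real.volume_Icc]; congr 1; ring
      simp only [hsum, Finset.sum_const, Finset.card_univ, Fintype.card_fin, nsmul_eq_mul]
      rw [ENNReal.ofReal_mul (p := 2 * r) (by linarith), mul_comm, ENNReal.ofReal_natCast]
    obtain ⟨x, hxS, hxU⟩ : (S \ ⋃ i, Icc (v i - r) (v i + r)).Nonempty := by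
      refine sdiff_nonempty.2 fun hsub => ?_
      exact absurd ((measure_mono hsub).trans hU) (not_le.2 h)
    refine ⟨Fin.cons x v, fun i => ?_, ?_⟩
    · cases i using Fin.cases with
      | zero => simpa using hxS
      | succ j => simpa using hv j
    have hx : ∀ i, r ≤ |x - v i| := fun i => by
      by_contra hlt
      obtain ⟨h1, h2⟩ := abs_lt.1 (not_le.1 hlt)
      exact hxU (mem_iUnion.2 ⟨i, by constructor <;> linarith⟩)
    intro i j hij
    cases i using Fin.cases with
    | zero =>
      cases j using Fin.cases with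
      | zero => exact absurd rfl hij
      | succ j => simpa using hx j
    | succ i =>
      cases j using Fin.cases with
      | zero => simpa [abs_sub_comm] using hx i
      | succ j => simpa using hsep (fun h => hij (by rw [h]))

/-- The one-variable bound: the constant. -/
noncomputable def lineConst (d : ℕ) : ℝ := 4 * (d + 1) ^ 2

/-- One variable: a polynomial at least `γ` somewhere is `≤ γ * s ^ d` only on measure `O(s)`. -/
lemma volume_line_le {d : ℕ} (hd : 0 < d) {q : ℝ[X]} (hq : q.natDegree ≤ d) {γ s t₀ : ℝ} (hs : 0 < s)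
    (hγ : 0 < γ) (ht₀ : |t₀| ≤ 1) (h₀ : γ ≤ |q.eval t₀|) :
    volume {t ∈ Icc (-1 : ℝ) 1 | |q.eval t| ≤ γ * s ^ d} ≤ ENNReal.ofReal (lineConst d * s) := by
  set S := {t ∈ Icc (-1 : ℝ) 1 | |q.eval t| ≤ γ * s ^ d} with hS
  by_contra hbig
  set r := lineConst d * s / (2 * d) with hr
  have hd' : (1 : ℝ) ≤ d := by exact_mod_cast hd
  have hr0 : 0 < r := by
    simp only [hr, lineConst]; positivity
  have hcount : 2 * r * (d : ℝ) = lineConst d * s := by
    rw [hr]; field_simp
  obtain ⟨v, hv, hsep⟩ := exists_separated hr0.le d (by rw [hcount]; exact not_le.1 hbig)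
  have hinj : Set.InjOn v (Finset.univ : Finset (Fin (d + 1))) := fun i _ j _ h => by
    by_contra hij
    have : r ≤ |v i - v j| := hsep hij
    rw [h, sub_self, abs_zero] at this
    linarith
  have hdeg : q.degree < (Finset.univ : Finset (Fin (d + 1))).card := by
    rw [Finset.card_univ, Fintype.card_fin]
    exact lt_of_le_of_lt (degree_le_natDegree) (by exact_mod_cast Nat.lt_succ_of_le hq)
  have heq := Lagrange.eq_interpolate hinj hdeg
  have hval : q.eval t₀ =
      ∑ i, q.eval (v i) * (Lagrange.basis Finset.univ v i).eval t₀ := by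
    conv_lhs => rw [heq]
    simp [Lagrange.interpolate_apply, eval_finsetSum]
  have hbasis : ∀ i, |(Lagrange.basis Finset.univ v i).eval t₀| ≤ (2 / r) ^ d := by
    intro i
    rw [Lagrange.basis, eval_prod, Finset.abs_prod]
    have hle : ∀ j ∈ (Finset.univ : Finset (Fin (d + 1))).erase i,
        |(Lagrange.basisDivisor (v i) (v j)).eval t₀| ≤ 2 / r := by
      intro j hj
      have hij : i ≠ j := (Finset.ne_of_mem_erase hj).symm
      rw [Lagrange.basisDivisor, eval_mul, eval_C, eval_sub, eval_X, eval_C, abs_mul, abs_inv,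
        inv_mul_eq_div]
      have h1 : |t₀ - v j| ≤ 2 := by
        have h2 := (hv j).1
        rw [abs_le] at ht₀ ⊢
        exact ⟨by linarith [h2.2], by linarith [h2.1]⟩
      exact div_le_div₀ zero_le_two h1 hr0 (hsep hij)
    refine (Finset.prod_le_prod (fun _ _ => abs_nonneg _) hle).trans_eq ?_
    simp [Finset.card_erase_of_mem, div_pow]
  have hbound : |q.eval t₀| ≤ (d + 1) * (γ * s ^ d * (2 / r) ^ d) := by
    rw [hval]
    refine (Finset.abs_sum_le_sum_abs _ _).trans ((Finset.sum_le_sum (g := fun _ => γ * s ^ d * (2 / r) ^ d) fun i _ => ?_).trans_eq ?_)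
    · rw [abs_mul]
      exact mul_le_mul (hv i).2 (hbasis i) (abs_nonneg _) (by positivity)
    · simp
  have hkey : s * (2 / r) ≤ 1 / (d + 1) := by
    rw [hr, lineConst]
    rw [div_div_eq_mul_div, mul_div_assoc', div_le_div_iff₀ (by positivity) (by positivity)]
    nlinarith
  have hpow : (d + 1 : ℝ) * (s ^ d * (2 / r) ^ d) < 1 ∨ d = 1 := by
    rcases Nat.lt_or_ge d 2 with h | h
    · exact Or.inr (by omega)
    · left
      rw [← mul_pow]
      have h1 : (s * (2 / r)) ^ d ≤ (1 / (d + 1 : ℝ)) ^ d := pow_le_pow_left₀ (by positivity) hkey d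
      have h2 : (1 / (d + 1 : ℝ)) ^ d ≤ (1 / (d + 1 : ℝ)) ^ 2 :=
        pow_le_pow_of_le_one (by positivity) (by rw [div_le_one (by positivity)]; linarith) h
      calc (d + 1 : ℝ) * (s * (2 / r)) ^ d ≤ (d + 1) * (1 / (d + 1 : ℝ)) ^ 2 := by
            gcongr; exact h1.trans h2
        _ = 1 / (d + 1) := by field_simp
        _ < 1 := by rw [div_lt_one (by positivity)]; linarith
  rcases hpow with h | rfl
  · nlinarith
  · have h1 : s * (2 / r) = 1 / 4 := by rw [hr, lineConst]; field_simp; ring
    simp only [pow_one] at hbound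
    push_cast at hbound
    nlinarith


/-- The constant of the cube bound. -/
noncomputable def cubeConst (d : ℕ) : ℕ → ℝ
  | 0 => 0
  | n + 1 => 2 ^ n * lineConst d + 2 * cubeConst d n

lemma cubeConst_nonneg (d : ℕ) : ∀ n, 0 ≤ cubeConst d n
  | 0 => le_rfl
  | n + 1 => by
    have := cubeConst_nonneg d n
    simp only [cubeConst, lineConst]
    positivity

lemma update_cons_succ {n : ℕ} (t : ℝ) (z : Fin n → ℝ) (i : Fin n) (u : ℝ) :
    Function.update (Fin.cons t z : Fin (n + 1) → ℝ) i.succ u =
      Fin.cons t (Function.update z i u) := by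
  rw [Fin.cons_update]

lemma polyEach_cons {d n : ℕ} {f : (Fin (n + 1) → ℝ) → ℝ} (hf : PolyEach d f) (t : ℝ) :
    PolyEach d fun z : Fin n → ℝ => f (Fin.cons t z) := fun z i => by
  obtain ⟨q, hq, hval⟩ := hf (Fin.cons t z) i.succ
  exact ⟨q, hq, fun u => by rw [← hval u, update_cons_succ]⟩

/-- Many variables: at least `γ` at a point of the cube gives `≤ γ * s ^ (d * n)` only on
measure `O(s)`. -/
theorem volume_sublevel_le {d : ℕ} (hd : 0 < d) : ∀ (n : ℕ) (f : (Fin n → ℝ) → ℝ),
    Continuous f → PolyEach d f → ∀ (γ s : ℝ), 0 < γ → 0 < s → s < 1 →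
    ∀ z₀ ∈ cube n, γ ≤ |f z₀| → 0 < n →
      volume {z ∈ cube n | |f z| ≤ γ * s ^ (d * n)} ≤ ENNReal.ofReal (cubeConst d n * s) := by
  intro n
  induction n with
  | zero => intro f _ _ γ s _ _ _ z₀ _ _ h; omega
  | succ n ih =>
    intro f hc hf γ s hγ hs hs1 z₀ hz₀ h₀ _
    set z' : Fin n → ℝ := Fin.tail z₀ with hz'
    set δ : ℝ := γ * s ^ d with hδ
    have hδ0 : 0 < δ := by positivity
    obtain ⟨q, hq, hval⟩ := hf z₀ 0
    have hline : ∀ t, f (Fin.cons t z') = q.eval t := fun t => by
      rw [← hval t]; congr 1; rw [hz']; exact (Fin.update_cons_zero (z₀ 0) (Fin.tail z₀) t).symm.trans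
        (by rw [Fin.cons_self_tail])
    set A : Set ℝ := {t ∈ Icc (-1 : ℝ) 1 | |q.eval t| ≤ δ} with hA
    have hzmem : ∀ {m : ℕ} {z : Fin m → ℝ}, z ∈ cube m → ∀ i, |z i| ≤ 1 := fun hz i =>
      abs_le.2 ⟨hz.1 i, hz.2 i⟩
    have hAvol : volume A ≤ ENNReal.ofReal (lineConst d * s) := by
      refine volume_line_le hd hq hs hγ (t₀ := z₀ 0) (hzmem hz₀ 0) ?_
      rw [← hline, hz', Fin.cons_self_tail]
      exact h₀
    have hz'cube : z' ∈ cube n := ⟨fun i => hz₀.1 i.succ, fun i => hz₀.2 i.succ⟩
    have hAm : MeasurableSet A :=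
      measurableSet_Icc.inter (measurableSet_le q.continuous.abs.measurable measurable_const)
    -- Fubini
    set e := MeasurableEquiv.piFinSuccAbove (fun _ : Fin (n + 1) => ℝ) 0 with he
    set T : Set (ℝ × (Fin n → ℝ)) :=
      {p | p.1 ∈ Icc (-1 : ℝ) 1 ∧ p.2 ∈ cube n ∧ |f (Fin.cons p.1 p.2)| ≤ γ * s ^ (d * (n + 1))}
      with hT
    have hTm : MeasurableSet T := by
      have hg : Measurable fun p : ℝ × (Fin n → ℝ) => |f (Fin.cons p.1 p.2)| :=
        (hc.comp (Continuous.finCons continuous_fst continuous_snd)).abs.measurable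
      exact (measurable_fst measurableSet_Icc).inter
        ((measurable_snd (measurableSet_cube n)).inter (hg measurableSet_Iic))
    have hpre : {z ∈ cube (n + 1) | |f z| ≤ γ * s ^ (d * (n + 1))} = e ⁻¹' T := by
      ext z
      have hez : e z = (z 0, Fin.tail z) := by
        simp [he, MeasurableEquiv.piFinSuccAbove]

      simp only [mem_ofPred_eq, mem_preimage, hez, hT, Fin.cons_self_tail, cube, Set.mem_Icc,
        Pi.le_def, Fin.forall_fin_succ, Fin.tail]
      tauto
    rw [hpre, (volume_preserving_piFinSuccAbove (fun _ : Fin (n + 1) => ℝ) 0).measure_preimage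
      hTm.nullMeasurableSet, Measure.volume_eq_prod, Measure.prod_apply hTm]
    have hslice : ∀ t, volume (Prod.mk t ⁻¹' T) ≤
        A.indicator (fun _ => ENNReal.ofReal (2 ^ n)) t +
          (Icc (-1 : ℝ) 1).indicator (fun _ => ENNReal.ofReal (cubeConst d n * s)) t := by
      intro t
      by_cases ht : t ∈ Icc (-1 : ℝ) 1
      · by_cases hta : t ∈ A
        · refine le_add_right ?_
          rw [indicator_of_mem hta, ← volume_cube n]
          exact measure_mono fun z hz => hz.2.1
        · refine le_add_left ?_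
          rw [indicator_of_mem ht]
          have hbig : δ < |f (Fin.cons t z')| := by
            rw [hline]
            by_contra h
            exact hta ⟨ht, not_lt.1 h⟩
          rcases Nat.eq_zero_or_pos n with rfl | hn
          · -- no variables left: the slice is empty
            have hempty : Prod.mk t ⁻¹' T = ∅ := eq_empty_of_forall_notMem fun z hz => by
              have h3 := hz.2.2
              obtain rfl : z = z' := Subsingleton.elim _ _
              simp only [Nat.zero_add, Nat.mul_one] at h3
              linarith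
            simp [hempty]
          · refine le_trans (measure_mono fun z hz => ?_) (ih (fun z => f (Fin.cons t z))
              (hc.comp (Continuous.finCons continuous_const continuous_id)) (polyEach_cons hf t)
              δ s hδ0 hs hs1 z' hz'cube hbig.le hn)
            refine ⟨hz.2.1, hz.2.2.trans_eq ?_⟩
            rw [hδ, mul_assoc, ← pow_add]
            ring_nf
      · rw [show Prod.mk t ⁻¹' T = ∅ from eq_empty_of_forall_notMem fun z hz => ht hz.1]
        simp
    refine (lintegral_mono hslice).trans ?_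
    rw [lintegral_add_left (measurable_const.indicator hAm),
      lintegral_indicator_const hAm, lintegral_indicator_const measurableSet_Icc, Real.volume_Icc]
    refine (add_le_add (mul_le_mul_right hAvol _) le_rfl).trans_eq ?_
    have hd0 : 0 ≤ lineConst d := by simp only [lineConst]; positivity
    have hn0 := cubeConst_nonneg d n
    rw [← ENNReal.ofReal_mul (by positivity), ← ENNReal.ofReal_mul (mul_nonneg hn0 hs.le),
      ← ENNReal.ofReal_add (by positivity) (by positivity)]
    simp only [cubeConst]
    congr 1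
    ring

end Vale.Agent.P205F.Prob
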