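import Mathlib
import Vale.Agent.P205F.Prob.Sublevel

/-!
# Independent rows, and choosing a parameter (measure lemmas of GoodProb)

`volume_rows_le`: `N` functions with a simultaneous shift (a right inverse `R` of norm `≤ B` for
their common linear part) are all `≤ ε` only on measure `O((1 + B)^m ε^N)`. `exists_good` picks a
parameter outside finitely many small sets.
-/

namespace Vale.Agent.P205F.Prob

open MeasureTheory Set
open scoped ENNReal

/-- All `N` rows small: shifts by `R y` move the rows exactly by `y`. -/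
theorem volume_rows_le {m N : ℕ} (L : (Fin m → ℝ) → (Fin N → ℝ)) (hL : Continuous L)
    (R : (Fin N → ℝ) → (Fin m → ℝ)) (hshift : ∀ z y, L (z + R y) = L z + y)
    {B : ℝ} (hB : ∀ y, (∀ i, |y i| ≤ 1) → ∀ j, |R y j| ≤ B) (hB0 : 0 ≤ B)
    {ε : ℝ} (hε : 0 < ε) :
    volume {z ∈ cube m | ∀ i, |L z i| ≤ ε} ≤
      ENNReal.ofReal ((2 * (1 + B)) ^ m * (3 * ε) ^ N) := by
  set S := {z ∈ cube m | ∀ i, |L z i| ≤ ε} with hS
  have hSm : MeasurableSet S := by
    refine (measurableSet_cube m).inter ?_
    have : {z : Fin m → ℝ | ∀ i, |L z i| ≤ ε} = ⋂ i, {z | |L z i| ≤ ε} := by ext z; simp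
    show MeasurableSet {z : Fin m → ℝ | ∀ i, |L z i| ≤ ε}
    rw [this]
    exact MeasurableSet.iInter fun i =>
      (((continuous_apply i).comp hL).abs.measurable measurableSet_Iic)
  set K := ⌊1 / (3 * ε)⌋₊ + 1 with hK
  have hK1 : 1 / (3 * ε) ≤ (K : ℝ) := by
    rw [hK]; push_cast; exact (Nat.lt_floor_add_one _).le
  set y : (Fin N → Fin K) → (Fin N → ℝ) := fun k i => 3 * ε * (k i : ℕ) with hy
  have hy1 : ∀ k i, |y k i| ≤ 1 := fun k i => by
    have hk : ((k i : ℕ) : ℝ) ≤ 1 / (3 * ε) := by
      refine le_trans ?_ (Nat.floor_le (by positivity))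
      exact_mod_cast Nat.lt_succ_iff.1 (k i).isLt
    rw [hy, abs_of_nonneg (by positivity)]
    rw [le_div_iff₀ (by positivity)] at hk
    linarith
  set sh : (Fin N → Fin K) → Set (Fin m → ℝ) := fun k => (fun z => z + -R (y k)) ⁻¹' S with hsh
  have hdisj : Pairwise fun a b => Disjoint (sh a) (sh b) := by
    intro a b hab
    refine Set.disjoint_left.2 fun z hza hzb => hab (funext fun i => Fin.ext ?_)
    have ha := hshift (z + -R (y a)) (y a)
    have hb := hshift (z + -R (y b)) (y b)
    rw [neg_add_cancel_right] at ha hb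
    have h1 := hza.2 i
    have h2 := hzb.2 i
    have h3 : |y a i - y b i| ≤ 2 * ε := by
      have h4 : y a i - y b i = L (z + -R (y b)) i - L (z + -R (y a)) i := by
        have h5 := congrFun (ha.symm.trans hb) i
        simp only [Pi.add_apply] at h5
        linarith
      rw [h4]
      exact (abs_sub _ _).trans (by linarith)
    by_contra hne
    have h6 : (1 : ℝ) ≤ |((a i : ℕ) : ℝ) - (b i : ℕ)| := by
      rcases lt_or_gt_of_ne hne with hlt | hlt
      · have : ((a i : ℕ) : ℝ) + 1 ≤ (b i : ℕ) := by exact_mod_cast hlt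
        rw [abs_of_neg (by linarith)]; linarith
      · have : ((b i : ℕ) : ℝ) + 1 ≤ (a i : ℕ) := by exact_mod_cast hlt
        rw [abs_of_pos (by linarith)]; linarith
    simp only [hy, ← mul_sub, abs_mul, abs_of_pos (show (0 : ℝ) < 3 * ε by linarith)] at h3
    nlinarith
  have hshm : ∀ k, MeasurableSet (sh k) := fun k =>
    (measurable_id.add_const (-R (y k))) hSm
  have hsub : (⋃ k, sh k) ⊆ Icc (fun _ => -(1 + B)) (fun _ => 1 + B) := by
    refine iUnion_subset fun k z hz => ⟨fun j => ?_, fun j => ?_⟩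
    all_goals
      have h1 := hz.1.1 j
      have h2 := hz.1.2 j
      have h3 := abs_le.1 (hB (y k) (hy1 k) j)
      simp only [Pi.add_apply, Pi.neg_apply] at h1 h2
      linarith
  have hvol : ∀ k, volume (sh k) = volume S := fun k => measure_preimage_add_right _ _ _
  have htot := (measure_iUnion hdisj hshm).symm.trans_le (measure_mono (μ := volume) hsub)
  simp only [hvol, tsum_fintype, Finset.sum_const, Finset.card_univ, Fintype.card_fun,
    Fintype.card_fin, nsmul_eq_mul] at htot
  have hbox : volume (Icc (fun _ : Fin m => -(1 + B)) (fun _ => 1 + B)) =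
      ENNReal.ofReal ((2 * (1 + B)) ^ m) := by
    have h : (1 + B - -(1 + B)) = 2 * (1 + B) := by ring
    rw [Real.volume_Icc_pi]
    simp only [h, Finset.prod_const, Finset.card_univ, Fintype.card_fin]
    rw [ENNReal.ofReal_pow (by positivity)]
  rw [hbox] at htot
  have hcast : ((K ^ N : ℕ) : ℝ≥0∞) = ENNReal.ofReal ((K : ℝ) ^ N) := by
    rw [ENNReal.ofReal_pow (Nat.cast_nonneg _), ENNReal.ofReal_natCast]; push_cast; rfl
  rw [hcast] at htot
  have hKpos : (0 : ℝ) < (K : ℝ) ^ N := by rw [hK]; positivity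
  calc volume S ≤ ENNReal.ofReal ((2 * (1 + B)) ^ m) / ENNReal.ofReal ((K : ℝ) ^ N) := by
        rw [ENNReal.le_div_iff_mul_le (Or.inl (ENNReal.ofReal_ne_zero_iff.2 hKpos))
          (Or.inl ENNReal.ofReal_ne_top), mul_comm]
        exact htot
    _ = ENNReal.ofReal ((2 * (1 + B)) ^ m / (K : ℝ) ^ N) := (ENNReal.ofReal_div_of_pos hKpos).symm
    _ ≤ _ := by
        refine ENNReal.ofReal_le_ofReal ?_
        rw [div_le_iff₀ hKpos, mul_assoc, ← mul_pow]
        refine le_mul_of_one_le_right (by positivity) (one_le_pow₀ ?_)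
        rw [div_le_iff₀ (by positivity)] at hK1
        linarith

/-- A parameter of the cube outside finitely many small sets. -/
theorem exists_good {n : ℕ} {ι : Type*} (s : Finset ι) (Bad : ι → Set (Fin n → ℝ)) (b : ι → ℝ)
    (hb : ∀ i ∈ s, 0 ≤ b i) (hvol : ∀ i ∈ s, volume (Bad i ∩ cube n) ≤ ENNReal.ofReal (b i))
    (hsum : ∑ i ∈ s, b i < 2 ^ n) : ∃ z ∈ cube n, ∀ i ∈ s, z ∉ Bad i := by
  by_contra hcon
  push Not at hcon
  have hsub : cube n ⊆ ⋃ i ∈ s, Bad i ∩ cube n := fun z hz => by
    obtain ⟨i, hi, hzi⟩ := hcon z hz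
    exact mem_biUnion hi ⟨hzi, hz⟩
  have h := ((measure_mono (μ := volume) hsub).trans (measure_biUnion_finset_le s _)).trans
    (Finset.sum_le_sum hvol)
  rw [volume_cube, ← ENNReal.ofReal_sum_of_nonneg hb,
    ENNReal.ofReal_le_ofReal_iff (Finset.sum_nonneg hb)] at h
  linarith

/-- A polynomial of bounded total degree is a polynomial of that degree in each variable. -/
lemma polyEach_mvPolynomial {n d : ℕ} (P : MvPolynomial (Fin n) ℝ) (hP : P.totalDegree ≤ d) :
    PolyEach d fun z => MvPolynomial.eval z P := by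
  intro z i
  refine ⟨P.eval₂ Polynomial.C (fun j => if j = i then Polynomial.X else Polynomial.C (z j)),
    ?_, fun t => ?_⟩
  · rw [MvPolynomial.eval₂_eq]
    refine Polynomial.natDegree_sum_le_of_forall_le _ _ fun a ha => ?_
    refine Polynomial.natDegree_C_mul_le _ _ |>.trans ?_
    refine (Polynomial.natDegree_prod_le _ _).trans ?_
    refine le_trans (Finset.sum_le_sum fun j _ => ?_)
      ((MvPolynomial.le_totalDegree ha).trans hP)
    refine Polynomial.natDegree_pow_le.trans ?_
    split_ifs <;> simp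
  · have hC : (Polynomial.evalRingHom t).comp Polynomial.C = RingHom.id ℝ := by
      ext a; simp
    have hX : ((Polynomial.evalRingHom t) ∘
        fun j => if j = i then Polynomial.X else Polynomial.C (z j)) = Function.update z i t := by
      funext j
      by_cases h : j = i
      · subst h; simp
      · simp [h]
    rw [← Polynomial.coe_evalRingHom, MvPolynomial.eval₂_comp_left, hC, hX]
    rfl

end Vale.Agent.P205F.Prob
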