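import Mathlib
import Vale.Agent.P205F.Prob.Slab

/-!
# Covering arguments (measure lemmas of GoodProb)

`exists_grid` is the finite grid of a cube; `exists_good_uniform` turns pointwise smallness
probabilities into one parameter that is good at every point.
-/

namespace Vale.Agent.P205F.Prob

open MeasureTheory Set
open scoped ENNReal

/-- A grid of mesh `δ` in the cube with at most `(2 / δ + 3)^k` points. -/
theorem exists_grid (k : ℕ) {δ : ℝ} (hδ : 0 < δ) :
    ∃ G : Finset (Fin k → ℝ), (G.card : ℝ) ≤ (2 / δ + 3) ^ k ∧ (∀ q ∈ G, q ∈ cube k) ∧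
      ∀ p ∈ cube k, ∃ q ∈ G, ∀ i, |p i - q i| ≤ δ := by
  classical
  set K := ⌊2 / δ⌋₊ + 2 with hK
  set pt : (Fin k → Fin K) → (Fin k → ℝ) := fun a i => min 1 (-1 + δ * (a i : ℕ)) with hpt
  refine ⟨Finset.univ.image pt, ?_, ?_, fun p hp => ?_⟩
  · have hc : ((Finset.univ.image pt).card : ℝ) ≤ (K : ℝ) ^ k := by
      refine (Nat.cast_le.2 Finset.card_image_le).trans_eq ?_
      simp
    refine hc.trans (pow_le_pow_left₀ (Nat.cast_nonneg _) ?_ k)
    have := Nat.floor_le (show (0 : ℝ) ≤ 2 / δ by positivity)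
    rw [hK]; push_cast
    linarith
  · simp only [Finset.mem_image, Finset.mem_univ, true_and, forall_exists_index,
      forall_apply_eq_imp_iff]
    intro a
    refine ⟨fun i => ?_, fun i => min_le_left _ _⟩
    exact le_min (by norm_num) (le_add_of_nonneg_right (by positivity))
  · have hlo : ∀ i, 0 ≤ (p i + 1) / δ := fun i => div_nonneg (by linarith [hp.1 i]) hδ.le
    have hlt : ∀ i, ⌊(p i + 1) / δ⌋₊ < K := fun i => by
      have h : (p i + 1) / δ ≤ 2 / δ := div_le_div_of_nonneg_right (by linarith [hp.2 i]) hδ.le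
      have := Nat.floor_le_floor h
      omega
    refine ⟨pt (fun i => (⟨⌊(p i + 1) / δ⌋₊, hlt i⟩ : Fin K)), Finset.mem_image_of_mem _ (Finset.mem_univ _),
      fun i => ?_⟩
    have h1 := Nat.floor_le (hlo i)
    have h2 := Nat.lt_floor_add_one ((p i + 1) / δ)
    rw [le_div_iff₀ hδ] at h1
    rw [div_lt_iff₀ hδ] at h2
    have hp2 : p i ≤ 1 := hp.2 i
    simp only [hpt]
    rw [min_eq_right (by linarith), abs_of_nonneg (by linarith)]
    linarith

/-- Pointwise probability plus a net gives one parameter that is good everywhere. -/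
theorem exists_good_uniform {n : ℕ} {P ι : Type*} (Φ : (Fin n → ℝ) → P → ι → ℝ) (K : Set P)
    (G : Finset P) {ε b : ℝ} (hb : 0 ≤ b)
    (hnet : ∀ p ∈ K, ∃ q ∈ G, ∀ z ∈ cube n, ∀ i, |Φ z p i - Φ z q i| ≤ ε)
    (hsmall : ∀ q ∈ G, volume {z ∈ cube n | ∀ i, |Φ z q i| ≤ 2 * ε} ≤ ENNReal.ofReal b)
    (hcount : (G.card : ℝ) * b < 2 ^ n) :
    ∃ z ∈ cube n, ∀ p ∈ K, ∃ i, ε < |Φ z p i| := by
  obtain ⟨z, hz, hgood⟩ := exists_good G (fun q => {z : Fin n → ℝ | ∀ i, |Φ z q i| ≤ 2 * ε}) (fun _ => b)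
    (fun _ _ => hb) (fun q hq => le_trans (measure_mono (show _ ⊆ {z ∈ cube n | ∀ i, |Φ z q i| ≤ 2 * ε} from
      Set.inter_comm _ _ ▸ subset_rfl)) (hsmall q hq))
    (by simpa using hcount)
  refine ⟨z, hz, fun p hp => ?_⟩
  obtain ⟨q, hq, hclose⟩ := hnet p hp
  by_contra h
  push Not at h
  refine hgood q hq fun i => ?_
  have h1 := abs_sub_abs_le_abs_sub (Φ z q i) (Φ z p i)
  rw [abs_sub_comm] at h1
  linarith [hclose z hz i, h i]

end Vale.Agent.P205F.Prob
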